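import Vale.Agent.P073Z.Sk2
import Vale.Agent.P073Z.RCX2

/-!
# Gauges, covers, counting and segments
-/

open Set Metric Topology Filter MeasureTheory
open scoped ENNReal NNReal

namespace P073

namespace TP

/-- a gauge satisfying a monotone property which holds locally for constants -/
theorem exists_gauge {T : Type} [MetricSpace T] {X : Set T} (P : T → ℝ → Prop)
    (hm : ∀ x a b, 0 < a → a ≤ b → P x b → P x a)
    (hl : ∀ x ∈ X, ∃ c > 0, ∀ᶠ y in 𝓝[X] x, P y c) :
    ∃ r : T → ℝ, Gauge r X ∧ ∀ x ∈ X, P x (r x) := by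
  classical
  obtain ⟨g, hg⟩ := exists_continuous_forall_mem_convex_of_local_const (X := X) (E := ℝ)
    (t := fun x => {c | 0 < c ∧ P x c}) (fun x => by
      refine convex_iff_ordConnected.2 ⟨fun a ha b hb c hc => ?_⟩
      exact ⟨ha.1.trans_le hc.1, hm _ _ _ (ha.1.trans_le hc.1) hc.2 hb.2⟩) (fun x => by
      obtain ⟨c, hc, h⟩ := hl x x.2
      refine ⟨c, ?_⟩
      rw [nhdsWithin_eq_map_subtype_coe x.2, eventually_map] at h
      exact h.mono fun y hy => ⟨hc, hy⟩)
  refine ⟨fun x => if h : x ∈ X then g ⟨x, h⟩ else 1, ⟨?_, fun x hx => ?_⟩, fun x hx => ?_⟩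
  · rw [continuousOn_iff_continuous_domRestrict]
    refine g.continuous.congr fun x => ?_
    simp [x.2]
  · simpa [hx] using (hg ⟨x, hx⟩).1
  · simpa [hx] using (hg ⟨x, hx⟩).2

/-- a positive Lipschitz function on an open set, not positive outside -/
theorem exists_depth {Ω : Set E3} (hΩ : IsOpen Ω) : ∃ d : E3 → ℝ, LipschitzWith 1 d ∧
    (∀ x ∈ Ω, 0 < d x) ∧ ∀ x, 0 < d x → x ∈ Ω := by
  rcases eq_empty_or_nonempty Ωᶜ with h | h
  · exact ⟨fun _ => 1, (LipschitzWith.const 1).weaken zero_le_one, fun _ _ => one_pos,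
      fun x _ => by
        by_contra hx
        exact (h ▸ (show x ∈ Ωᶜ from hx) : x ∈ (∅ : Set E3))⟩
  · refine ⟨fun x => infDist x Ωᶜ, lipschitz_infDist_pt _, fun x hx => ?_, fun x hx => ?_⟩
    · exact (hΩ.isClosed_compl.notMem_iff_infDist_pos h).1 fun h' => h' hx
    · by_contra hx'
      exact hx.ne' (infDist_zero_of_mem (show x ∈ Ωᶜ from hx'))

/-- radii of balls which do not run to the boundary -/
theorem exists_radius {Ω : Set E3} (hΩ : IsOpen Ω) : ∃ ρ : E3 → ℝ, (∀ x ∈ Ω, 0 < ρ x) ∧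
    ∀ x₀ ∈ Ω, ∃ U ∈ 𝓝 x₀, ∃ C, IsCompact C ∧ C ⊆ Ω ∧
      ∀ x ∈ Ω, (ball x (ρ x) ∩ U).Nonempty → ball x (ρ x) ⊆ C := by
  obtain ⟨d, hd, hp, hn⟩ := exists_depth hΩ
  have hL : ∀ x y, d x - d y ≤ dist x y := fun x y => by
    have := hd.dist_le_mul x y
    rw [NNReal.coe_one, one_mul, Real.dist_eq] at this
    exact (le_abs_self _).trans this
  refine ⟨fun x => min 1 (d x / 3), fun x hx => lt_min one_pos (by have := hp x hx; positivity),
    fun x₀ hx₀ => ?_⟩
  have h0 := hp x₀ hx₀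
  refine ⟨ball x₀ (d x₀ / 4), ball_mem_nhds _ (by positivity),
    closedBall x₀ (2 + d x₀) ∩ {z | d x₀ / 4 ≤ d z},
    (isCompact_closedBall _ _).inter_right (isClosed_le continuous_const hd.continuous),
    fun z hz => hn z (lt_of_lt_of_le (by positivity) hz.2), ?_⟩
  rintro x - ⟨w, hw, hw0⟩ z hz
  rw [mem_ball] at hw hw0 hz
  have a1 := min_le_left 1 (d x / 3)
  have a2 := min_le_right 1 (d x / 3)
  have b1 := dist_triangle4 z x w x₀
  have b2 := hL x₀ w
  have b3 := hL w x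
  have b4 := hL x z
  rw [dist_comm x₀ w] at b2
  rw [dist_comm x z] at b4
  rw [dist_comm x w] at b1
  exact ⟨mem_closedBall.2 (by linarith), show d x₀ / 4 ≤ d z by linarith⟩

theorem cell_subset_star (K : RCx E3) (j : K.ι) : K.cell j ⊆ K.star j := fun y hy =>
  mem_iUnion₂.2 ⟨j, ⟨y, hy, hy⟩, hy⟩

theorem star_subset (K : RCx E3) (j : K.ι) : K.star j ⊆ K.carrier :=
  iUnion₂_subset fun l _ => K.cell_subset_carrier l

/-- convex neighbourhoods of the preimages of the stars of a fine complex -/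
theorem exists_cover {Ω Λ : Set E3} {f f' : E3 → E3} (hΩ : IsOpen Ω) (hΛ : IsOpen Λ)
    (hf : HomeoOn f f' Ω Λ) (P : E3 → ℝ → Prop)
    (hl : ∀ x ∈ Ω, ∃ c > 0, ∀ᶠ y in 𝓝 x, P y c) :
    ∃ δ : E3 → ℝ, Gauge δ Λ ∧ ∀ K : RCx E3, K.carrier = Λ → (∀ j, Small δ (K.star j)) →
      ∃ O : K.ι → Set E3,
        (∀ j, IsOpen (O j) ∧ Convex ℝ (O j) ∧ O j ⊆ Ω ∧ f' '' K.star j ⊆ O j) ∧ LFIn O Ω ∧
        ∀ j, ∀ x ∈ O j, ∃ c, P x c ∧ ∀ y ∈ K.star j, dist y (f x) < c := by
  obtain ⟨ρ, hρ, hC⟩ := exists_radius hΩ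
  have h1 : ∀ x ∈ Ω, ∃ r > 0, r ≤ ρ x ∧ ball x r ⊆ Ω ∧ ∃ c, ∀ y ∈ ball x r, P y c ∧
      dist (f y) (f x) < c / 2 := by
    intro x hx
    obtain ⟨c, hc, h⟩ := hl x hx
    have h2 : ∀ᶠ y in 𝓝 x, dist (f y) (f x) < c / 2 :=
      (hf.cont.continuousAt (hΩ.mem_nhds hx)).eventually (ball_mem_nhds _ (half_pos hc))
    obtain ⟨r, hr, hb⟩ := Metric.mem_nhds_iff.1 ((h.and h2).and (hΩ.mem_nhds hx))
    exact ⟨min r (ρ x), lt_min hr (hρ x hx), min_le_right _ _,
      fun y hy => (hb (ball_subset_ball (min_le_left _ _) hy)).2,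
      c, fun y hy => (hb (ball_subset_ball (min_le_left _ _) hy)).1⟩
  choose! r hr hrρ hrΩ c hc using h1
  obtain ⟨δ, hδ, hδP⟩ := exists_gauge (X := Λ)
    (fun y t => ∃ x ∈ Ω, MapsTo f' (ball y t) (ball x (r x)))
    (fun y a b _ hab ⟨x, hx, h⟩ => ⟨x, hx, h.mono_left (ball_subset_ball hab)⟩) (fun y hy => by
      have hx := hf.mapsTo_inv hy
      obtain ⟨t, ht, hb⟩ := Metric.mem_nhds_iff.1
        ((hf.cont_inv.continuousAt (hΛ.mem_nhds hy)).eventually (ball_mem_nhds _ (hr _ hx)))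
      refine ⟨t / 2, half_pos ht, mem_nhdsWithin_of_mem_nhds ?_⟩
      filter_upwards [ball_mem_nhds y (half_pos ht)] with z hz
      refine ⟨f' y, hx, fun w hw => hb ?_⟩
      rw [mem_ball] at hz hw ⊢
      linarith [dist_triangle w z y])
  refine ⟨δ, hδ, fun K hK hs => ?_⟩
  have h2 : ∀ j, ∃ x ∈ Ω, f' '' K.star j ⊆ ball x (r x) := fun j => by
    obtain ⟨y, hy⟩ := K.cell_nonempty j
    have hy' := cell_subset_star K j hy
    obtain ⟨x, hx, h⟩ := hδP y (hK ▸ star_subset K j hy')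
    refine ⟨x, hx, ?_⟩
    rintro _ ⟨w, hw, rfl⟩
    exact h (mem_ball'.2 (hs j y hy' w hw))
  choose x hx hxs using h2
  refine ⟨fun j => ball (x j) (r (x j)),
    fun j => ⟨isOpen_ball, convex_ball _ _, hrΩ _ (hx j), hxs j⟩, fun x₀ hx₀ => ?_,
    fun j z hz => ⟨c (x j), (hc _ (hx j) z hz).1, fun y hy => ?_⟩⟩
  · obtain ⟨U, hU, C, hCc, hCΩ, hb⟩ := hC x₀ hx₀
    refine ⟨U, hU, (K.finite_meet (hCc.image_of_continuousOn (hf.cont.mono hCΩ))
      (hK ▸ (hf.mapsTo.mono_left hCΩ).image_subset)).subset fun j hj => ?_⟩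
    obtain ⟨y, hy⟩ := K.cell_nonempty j
    have hy' := cell_subset_star K j hy
    have hsub := ball_subset_ball (x := x j) (hrρ _ (hx j))
    refine ⟨y, hy, f' y, hb _ (hx j) (Nonempty.mono (inter_subset_inter_left _ hsub) hj)
      (hsub (hxs j ⟨y, hy', rfl⟩)), hf.right_inv (hK ▸ star_subset K j hy')⟩
  · have h3 := (hc _ (hx j) _ (hxs j ⟨y, hy, rfl⟩)).2
    have h4 := (hc _ (hx j) z hz).2
    rw [hf.right_inv (hK ▸ star_subset K j hy)] at h3
    linarith [dist_triangle_right y (f z) (f (x j))]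

/-! ### counting -/

theorem encard_biUnion_le {α β κ : Type} (s : Finset κ) (A : κ → Set α) (B : κ → Set β)
    (h : ∀ k ∈ s, (A k).encard ≤ (B k).encard)
    (hd : ∀ k ∈ s, ∀ l ∈ s, k ≠ l → Disjoint (B k) (B l)) :
    (⋃ k ∈ s, A k).encard ≤ (⋃ k ∈ s, B k).encard := by
  classical
  induction s using Finset.induction_on with
  | empty => simp
  | insert a s ha ih =>
    rw [Finset.set_biUnion_insert, Finset.set_biUnion_insert, encard_union_eq (s := B a)]
    · refine (encard_union_le _ _).trans (add_le_add (h a (Finset.mem_insert_self _ _))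
        (ih (fun k hk => h k (Finset.mem_insert_of_mem hk)) fun k hk l hl =>
          hd k (Finset.mem_insert_of_mem hk) l (Finset.mem_insert_of_mem hl)))
    · exact disjoint_iUnion₂_right.2 fun k hk => hd a (Finset.mem_insert_self _ _) k
        (Finset.mem_insert_of_mem hk) fun e => ha (e ▸ hk)

/-- the count on a plane is bounded through the counts on the two-cells -/
theorem cnt_plane (K : RCx E3) {f g ψ : E3 → E3} {a b : E3} {X₀ H : Set E3} (hX : IsCompact X₀)
    (hXK : X₀ ⊆ K.carrier) (hH : ∀ y ∈ X₀, y ∈ H → ∃ S, K.dim S = 2 ∧ y ∈ K.cell S ∧ K.cell S ⊆ H)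
    (hψ : ∀ u ∈ segment ℝ a b, ψ u ∈ X₀ ∧ (ψ u ∈ K.skel 2 → g u = ψ u))
    (hf : Disjoint (f '' segment ℝ a b) (K.skel 1))
    (hc : ∀ S, K.dim S = 2 → cnt g a b (K.cell S) ≤ cnt f a b (K.cell S)) :
    cnt ψ a b H ≤ cnt f a b H := by
  classical
  have hfin : {S | K.dim S = 2 ∧ K.cell S ⊆ H ∧ (K.cell S ∩ X₀).Nonempty}.Finite :=
    (K.finite_meet hX hXK).subset fun _ h => h.2.2
  unfold cnt at hc ⊢
  rw [ENat.toENNReal_le]
  refine le_trans (encard_le_encard (t := ⋃ S ∈ hfin.toFinset,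
    {x ∈ segment ℝ a b | g x ∈ K.cell S}) ?_) (le_trans (encard_biUnion_le _ _
      (fun S => {x ∈ segment ℝ a b | f x ∈ K.cell S}) (fun S hS => ?_) fun S hS S' hS' hne => ?_)
      (encard_le_encard ?_))
  · rintro u ⟨hu, huH⟩
    obtain ⟨S, h2, hS, hSH⟩ := hH _ (hψ u hu).1 huH
    refine mem_iUnion₂.2 ⟨S, hfin.mem_toFinset.2 ⟨h2, hSH, _, hS, (hψ u hu).1⟩, hu, ?_⟩
    rwa [(hψ u hu).2 (K.cell_subset_skel h2.le hS)]
  · exact ENat.toENNReal_le.1 (hc S (hfin.mem_toFinset.1 hS).1)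
  · refine disjoint_left.2 fun u hu hu' => disjoint_left.1 hf ⟨u, hu.1, rfl⟩ ?_
    have h2 := (hfin.mem_toFinset.1 hS).1
    have h2' := (hfin.mem_toFinset.1 hS').1
    exact K.bd_subset_skel (k := 1) h2.le
      (K.inter_subset_bd hne (h2'.trans h2.symm).le ⟨hu.2, hu'.2⟩)
  · exact iUnion₂_subset fun S hS u hu => ⟨hu.1, (hfin.mem_toFinset.1 hS).2.1 hu.2⟩

theorem crossSum_mono (K : RCx E3) {f g : E3 → E3} {a b : E3}
    (hc : ∀ S, K.dim S = 2 → cnt g a b (K.cell S) ≤ cnt f a b (K.cell S)) :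
    crossSum K g a b ≤ crossSum K f a b := by
  unfold crossSum
  refine ENNReal.tsum_le_tsum fun q => ?_
  split_ifs with h
  · exact mul_le_mul_right (hc _ h.1) _
  · exact le_rfl

/-! ### segments -/

theorem segment_ends {a b x y : E3} (h : segment ℝ x y = segment ℝ a b) :
    (x = a ∧ y = b) ∨ (x = b ∧ y = a) := by
  have hx : x ∈ segment ℝ a b := h ▸ left_mem_segment ℝ x y
  have hy : y ∈ segment ℝ a b := h ▸ right_mem_segment ℝ x y
  have ha : a ∈ segment ℝ x y := h ▸ left_mem_segment ℝ a b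
  have hb : b ∈ segment ℝ x y := h ▸ right_mem_segment ℝ a b
  have key : ∀ {p q u w : E3}, u ∈ segment ℝ p q → w ∈ segment ℝ p q → p ∈ segment ℝ u w →
      p = u ∨ p = w := by
    intro p q u w hu hw hp
    rw [segment_eq_image'] at hu hw
    obtain ⟨s, hs, rfl⟩ := hu
    obtain ⟨t, ht, rfl⟩ := hw
    obtain ⟨c, d, hc, hd, hcd, he⟩ := hp
    have h1 : (c * s + d * t) • (q - p) = 0 := by
      have h2 : c • (p + s • (q - p)) + d • (p + t • (q - p)) =
          (c + d) • p + (c * s + d * t) • (q - p) := by module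
      rw [h2, hcd, one_smul] at he
      simpa using he
    rcases smul_eq_zero.1 h1 with h2 | h2
    · have h3 := mul_nonneg hc hs.1
      have h4 := mul_nonneg hd ht.1
      rcases eq_or_lt_of_le hc with h5 | h5
      · have : t = 0 := by
          have : d = 1 := by linarith
          rw [← h5, this] at h2
          linarith
        right
        simp [this]
      · have : s = 0 := by
          have : c * s = 0 := by linarith
          exact (mul_eq_zero.1 this).resolve_left h5.ne'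
        left
        simp [this]
    · left
      simp [h2]
  rcases key hx hy ha with h1 | h1
  · rcases key (segment_symm ℝ a b ▸ hx) (segment_symm ℝ a b ▸ hy) hb with h2 | h2
    · have h3 : a = b := h1.trans h2.symm
      subst h3
      rw [segment_same] at hy
      exact Or.inl ⟨h1.symm, hy⟩
    · exact Or.inl ⟨h1.symm, h2.symm⟩
  · rcases key (segment_symm ℝ a b ▸ hx) (segment_symm ℝ a b ▸ hy) hb with h2 | h2
    · exact Or.inr ⟨h2.symm, h1.symm⟩
    · have h3 : a = b := h1.trans h2.symm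
      subst h3
      rw [segment_same] at hx
      exact Or.inl ⟨hx, h1.symm⟩

theorem segVar_symm (f : E3 → E3) (a b : E3) : segVar f b a = segVar f a b := by
  unfold segVar
  have h := eVariationOn.comp_eq_of_antitoneOn (fun s : ℝ => f (AffineMap.lineMap a b s))
    (t := Icc (0:ℝ) 1) (fun s : ℝ => 1 - s) (fun s _ t _ h => by linarith)
  rw [image_const_sub_Icc, sub_self, sub_zero] at h
  rw [← h]
  congr 1
  funext s
  simp only [Function.comp, AffineMap.lineMap_apply_one_sub]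

theorem segVar_congr (f : E3 → E3) {a b x y : E3} (h : segment ℝ x y = segment ℝ a b) :
    segVar f x y = segVar f a b := by
  rcases segment_ends h with ⟨rfl, rfl⟩ | ⟨rfl, rfl⟩
  · rfl
  · exact segVar_symm f _ _

theorem edist_congr {a b x y : E3} (h : segment ℝ x y = segment ℝ a b) :
    edist x y = edist a b := by
  rcases segment_ends h with ⟨rfl, rfl⟩ | ⟨rfl, rfl⟩
  · rfl
  · exact edist_comm _ _

theorem cnt_congr (f : E3 → E3) {a b x y : E3} (h : segment ℝ x y = segment ℝ a b) (X : Set E3) :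
    cnt f x y X = cnt f a b X := by
  unfold cnt
  rw [h]

/-! ### convex complexes in space -/

theorem dim_le_three {Q : RCx E3} (hQ : Q.Cvx) (i : Q.ι) : Q.dim i ≤ 3 := by
  rw [(hQ i).2.2]
  simpa using Submodule.finrank_le (vectorSpan ℝ (Q.cell i))

theorem span_top_iff {Q : RCx E3} (hQ : Q.Cvx) (i : Q.ι) :
    affineSpan ℝ (Q.cell i) = ⊤ ↔ Q.dim i = 3 := by
  rw [AffineSubspace.affineSpan_eq_top_iff_vectorSpan_eq_top_of_nonempty ℝ E3 E3
    (Q.cell_nonempty i), (hQ i).2.2]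
  constructor
  · intro h
    rw [h]
    simp
  · intro h
    exact Submodule.eq_top_of_finrank_eq (by simpa using h)

theorem interior_nonempty_iff {Q : RCx E3} (hQ : Q.Cvx) (i : Q.ι) :
    (interior (Q.cell i)).Nonempty ↔ Q.dim i = 3 :=
  (hQ i).1.interior_nonempty_iff_affineSpan_eq_top.trans (span_top_iff hQ i)

theorem bd_eq_frontier {Q : RCx E3} (hQ : Q.Cvx) {i : Q.ι} (h : Q.dim i = 3) :
    Q.bd i = frontier (Q.cell i) := by
  rw [(hQ i).2.1, intrinsicFrontier, (span_top_iff hQ i).2 h]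
  have he : IsOpenEmbedding ((↑) : (⊤ : AffineSubspace ℝ E3) → E3) :=
    IsOpen.isOpenEmbedding_subtypeVal (s := ((⊤ : AffineSubspace ℝ E3) : Set E3)) isOpen_univ
  rw [← he.isOpenMap.preimage_frontier_eq_frontier_preimage he.continuous,
    image_preimage_eq _ fun x => ⟨⟨x, trivial⟩, rfl⟩]

/-- a finite union of closed sets without interior has no interior -/
theorem interior_biUnion {ι : Type} {s : Set ι} (hs : s.Finite) {X : ι → Set E3}
    (h : ∀ i ∈ s, IsClosed (X i) ∧ interior (X i) = ∅) : interior (⋃ i ∈ s, X i) = ∅ := by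
  induction s, hs using Set.Finite.induction_on with
  | empty => simp
  | insert _ _ ih =>
    rw [biUnion_insert, interior_union_isClosed_of_interior_empty (h _ (mem_insert _ _)).1
      (ih fun i hi => h i (mem_insert_of_mem _ hi))]
    exact (h _ (mem_insert _ _)).2

theorem not_mem_nhds {Q : RCx E3} (hQ : Q.Cvx) {x : E3} (hx : x ∈ Q.carrier) {W : Set E3}
    (hW : ∀ᶠ y in 𝓝 x, y ∈ W → ∃ i, Q.dim i ≤ 2 ∧ y ∈ Q.cell i) : W ∉ 𝓝 x := by
  intro h
  obtain ⟨U, hU, hfin⟩ := Q.lf x hx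
  have h1 := interior_biUnion (s := {i | (Q.cell i ∩ U).Nonempty ∧ Q.dim i ≤ 2})
    (hfin.subset fun _ hi => hi.1) (X := Q.cell) fun i hi => ⟨Q.isClosed_cell i, by
      by_contra hne
      have := (interior_nonempty_iff hQ i).1 (nonempty_iff_ne_empty.2 hne)
      have := hi.2
      omega⟩
  have h2 : x ∈ interior (⋃ i ∈ {i | (Q.cell i ∩ U).Nonempty ∧ Q.dim i ≤ 2}, Q.cell i) := by
    rw [mem_interior_iff_mem_nhds]
    filter_upwards [hU, h, hW] with y hy hyW hy'
    obtain ⟨i, hi, hyi⟩ := hy' hyW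
    exact mem_iUnion₂.2 ⟨i, ⟨⟨y, hyi, hy⟩, hi⟩, hyi⟩
  rw [h1] at h2
  exact h2

theorem interior_skel {Q : RCx E3} (hQ : Q.Cvx) : interior (Q.skel 2) = ∅ := by
  refine eq_empty_of_forall_notMem fun x hx => ?_
  exact not_mem_nhds hQ (Q.skel_subset_carrier 2 (interior_subset hx))
    (Eventually.of_forall fun y hy => Q.mem_skel.1 hy) (mem_interior_iff_mem_nhds.1 hx)

/-- every cell is a face of a three-cell -/
theorem exists_top {Q : RCx E3} (hQ : Q.Cvx) (ho : IsOpen Q.carrier) (i : Q.ι) :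
    ∃ l, Q.dim l = 3 ∧ Q.cell i ⊆ Q.cell l := by
  by_contra hn
  push Not at hn
  obtain ⟨x, hx⟩ := Q.ocell_nonempty i
  have hxc := Q.cell_subset_carrier i hx.1
  refine not_mem_nhds hQ hxc ?_ (ho.mem_nhds hxc)
  filter_upwards [Q.eventually_coface hx] with y hy hyc
  obtain ⟨l, hl⟩ := Q.mem_carrier.1 hyc
  refine ⟨l, ?_, hl⟩
  have h1 := dim_le_three hQ l
  have h2 : Q.dim l ≠ 3 := fun h => hn l h (hy l hl)
  omega

end TP

end P073
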