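import Vale.Agent.P073Z.Sk2

/-!
# The second half of the machine: filling a realisation of the two-skeleton
-/

open Set Metric Topology Filter MeasureTheory
open scoped ENNReal NNReal

namespace P073

/-- parametrisation of a realisation of the two-skeleton and filling of the three-cells -/
def FILL : Prop := ∀ {p : ℝ}, 1 ≤ p → p < 2 → ∃ C : ℝ≥0 → ℝ≥0,
  ∀ {Ω Λ : Set E3} (Q : RCx E3) (R : Q.ι → Set E3) (G : Set Q.ι) (A : Q.ι → E3 →ᵃ[ℝ] E3)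
    (O : Q.ι → Set E3) (n : Q.ι → E3 ≃ᴬ[ℝ] E3) (M : Q.ι → ℝ≥0) (η : Q.ι → ℝ≥0∞),
  IsOpen Ω → Ω.Nonempty → IsOpen Λ → IsPreconnected Λ → Q.Cvx → Q.carrier = Ω →
  Realiz Q 2 R →
  (∀ i ∈ G, InjOn (A i) (Q.cell i) ∧
    (∀ j, Q.cell j ⊆ Q.cell i → j ∈ G ∧ EqOn (A j) (A i) (Q.cell j)) ∧
    (Q.dim i ≤ 2 → R i = A i '' Q.cell i)) →
  (∀ i, Q.dim i = 3 → Convex ℝ (O i) ∧ O i ⊆ Λ ∧
    ∀ j, Q.dim j ≤ 2 → Q.cell j ⊆ Q.cell i → R j ⊆ O i) → LFIn O Λ →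
  (∀ i, 2 ≤ Q.dim i → BiChart (Q.dim i) (n i '' Q.cell i) (n i '' Q.bd i) (M i)) →
  (∀ i, 0 < η i) →
  ∃ (h h' : E3 → E3) (Z : Set E3), HomeoOn h h' Ω Λ ∧ DiscreteIn Z Ω ∧ Disjoint Z (Q.skel 2) ∧
    ConicalOn h (Ω \ Z) ∧ (∀ i, Q.dim i = 3 → h '' Q.cell i ⊆ O i) ∧
    (∀ i ∈ G, EqOn h (A i) (Q.cell i)) ∧
    (∀ e x y, Q.dim e = 1 → Q.cell e = segment ℝ x y → ∀ u ∈ Q.cell e, ∀ w ∈ Q.cell e,
      edist (h u) (h w) * edist x y ≤ μH[1] (R e) * edist u w) ∧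
    ∀ i, i ∉ G → 2 ≤ Q.dim i →
      En (Q.dim i) p (h ∘ (n i).symm) (n i '' Q.cell i) ≤
        C (M i) * En (Q.dim i - 1) p (h ∘ (n i).symm) (n i '' Q.bd i) + η i

end P073
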