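import Vale.Agent.P073Z.TOPO.Fill2
import Vale.Agent.P073Z.TOPO.FillStmt
import Vale.Agent.P073Z.TOPO.Cov
import Vale.Agent.P073Z.A3.Frc

/-!
# Filling of the three-cells
-/

open Set Metric Topology Filter MeasureTheory
open scoped ENNReal NNReal

namespace P073

namespace Fill

variable {Q : RCx E3} {R : Q.ι → Set E3} {G : Set Q.ι} {A : Q.ι → E3 →ᵃ[ℝ] E3} {p : ℝ}

theorem homeoOn_trans {S T U : Type} [TopologicalSpace S] [TopologicalSpace T]
    [TopologicalSpace U] {f : S → T} {g : T → S} {f' : T → U} {g' : U → T} {X : Set S}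
    {Y : Set T} {Z : Set U} (h : HomeoOn f g X Y) (h' : HomeoOn f' g' Y Z) :
    HomeoOn (f' ∘ f) (g ∘ g') X Z where
  mapsTo := h'.mapsTo.comp h.mapsTo
  mapsTo_inv := h.mapsTo_inv.comp h'.mapsTo_inv
  left_inv := fun x hx => by
    simp only [Function.comp]
    rw [h'.left_inv (h.mapsTo hx), h.left_inv hx]
  right_inv := fun z hz => by
    simp only [Function.comp]
    rw [h.right_inv (h'.mapsTo_inv hz), h'.right_inv hz]
  cont := h'.cont.comp h.cont h.mapsTo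
  cont_inv := h.cont_inv.comp h'.cont_inv h'.mapsTo_inv

theorem homeoOn_con {X Y : Set E3} (φ : ConHomeo X Y) : HomeoOn φ.toFun φ.invFun X Y :=
  ⟨φ.mapsTo, φ.mapsTo_inv, φ.left_inv, φ.right_inv, φ.cont, φ.cont_inv⟩

theorem conicalSet_punct {X : Set E3} (hX : ConicalSet X) (z : E3) : ConicalSet (X \ {z}) :=
  hX.inter (IsOpen.conicalSet isOpen_compl_singleton)

theorem mapsTo_punct {f : E3 → E3} {X Y : Set E3} (hm : MapsTo f X Y) (hi : InjOn f X) {z : E3}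
    (hz : z ∈ X) : MapsTo f (X \ {z}) (Y \ {f z}) := fun _ hx =>
  ⟨hm hx.1, fun h => hx.2 (hi hx.1 hz h)⟩

theorem ball3 {i : Q.ι} (hi : Q.dim i = 3) : ConBall 3 (Q.cell i) (Q.bd i) := by
  have := Q.ball i
  rwa [hi] at this

/-- the filling of a cell which is not good -/
theorem cell_bad (sch : SCH3) {C M : ℝ≥0} {n : E3 ≃ᴬ[ℝ] E3} {η : ℝ≥0∞}
    (hC : ∀ {Q B : Set E3}, BiChart 3 Q B M → ∃ z ∈ Q \ B, ∀ {h : E3 → E3} {η : ℝ≥0∞},
      ContinuousOn h Q → ConicalOn h (Q \ {z}) → 0 < η →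
      ∃ Θ Θ' : E3 → E3, HomeoOn Θ Θ' Q Q ∧ EqOn Θ id B ∧ Θ z = z ∧ ConicalOn Θ (Q \ {z}) ∧
        En 3 p (h ∘ Θ) Q ≤ C * En 2 p h B + η)
    {X Y : Set E3} (e : ConHomeo X Y) {i : Q.ι} (hi : Q.dim i = 3) (hX : Q.bd i ⊆ X)
    (hB : BiChart (Q.dim i) (n '' Q.cell i) (n '' Q.bd i) M) (hη : 0 < η) :
    ∃ (h g : E3 → E3) (z : E3), (z ∈ Q.cell i \ Q.bd i ∧
      HomeoOn h g (Q.cell i) (e.toFun '' Q.bd i ∪ Inside (e.toFun '' Q.bd i)) ∧
      EqOn h e.toFun (Q.bd i) ∧ ConicalOn h (Q.cell i \ {z})) ∧ EB Q p n C η i h := by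
  rw [hi] at hB
  obtain ⟨_, ⟨⟨z, hz, rfl⟩, hz'⟩, H⟩ := hC hB
  have hzb : z ∈ Q.cell i \ Q.bd i := ⟨hz, fun h => hz' (mem_image_of_mem n h)⟩
  have hball := ball3 hi
  obtain ⟨h, g, h1, h2, h3, -⟩ := sch (N := ∅) (e.restr hball.conicalSet_bdry hX) hball hzb
    isClosed_empty interior_empty
  let ν := ConHomeo.ofAffine n hball.conicalSet
  have m1 : MapsTo n (Q.cell i \ {z}) (n '' Q.cell i \ {n z}) := mapsTo_punct ν.mapsTo ν.injOn hz
  have m2 : MapsTo n.symm (n '' Q.cell i \ {n z}) (Q.cell i \ {z}) := by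
    have := mapsTo_punct ν.symm.mapsTo ν.symm.injOn (ν.mapsTo hz)
    rwa [show ν.symm.toFun (ν.toFun z) = z from ν.left_inv hz] at this
  have c2 : ConicalOn (h ∘ n.symm) (n '' Q.cell i \ {n z}) :=
    h3.comp (ν.symm.conical.mono (conicalSet_punct ν.conicalSet_right _) sdiff_subset) m2
      n.symm.continuous.continuousOn
  obtain ⟨Θ, Θ', t1, t2, t3, t4, t5⟩ := H (h := h ∘ n.symm)
    (h1.cont.comp ν.symm.cont ν.symm.mapsTo) c2 hη
  have m3 : MapsTo Θ (n '' Q.cell i \ {n z}) (n '' Q.cell i \ {n z}) := by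
    have := mapsTo_punct t1.mapsTo t1.left_inv.injOn (ν.mapsTo hz)
    rwa [show Θ (ν.toFun z) = n z from t3] at this
  have e1 : EqOn (((h ∘ n.symm) ∘ Θ) ∘ n) h (Q.bd i) := by
    intro x hx
    show h (n.symm (Θ (n x))) = _
    rw [t2 (mem_image_of_mem n hx), id, n.symm_apply_apply]
  refine ⟨((h ∘ n.symm) ∘ Θ) ∘ n, _, z, ⟨hzb, homeoOn_trans (homeoOn_con ν) (homeoOn_trans t1
    (homeoOn_trans (homeoOn_con ν.symm) h1)), e1.trans h2, ?_⟩, ?_⟩
  · exact (c2.comp t4 m3 (t1.cont.mono sdiff_subset)).comp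
      (ν.conical.mono (conicalSet_punct hball.conicalSet _) sdiff_subset) m1
      n.continuous.continuousOn
  · unfold EB
    rw [en_congr_img (Q.isCompact_bd i) n e1, hi]
    have e2 : (((h ∘ n.symm) ∘ Θ) ∘ n) ∘ n.symm = (h ∘ n.symm) ∘ Θ := by
      funext x
      simp only [Function.comp, n.apply_symm_apply]
    rw [e2]
    exact t5

/-- the filling of a good cell -/
theorem cell_good (jb : JB) (hG : GoodA Q R G A) {e : E3 → E3} {i : Q.ι} (hi : Q.dim i = 3)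
    (hg : i ∈ G) (he : EqOn (A i) e (Q.bd i)) :
    ∃ (g : E3 → E3) (z : E3), z ∈ Q.cell i \ Q.bd i ∧
      HomeoOn (A i) g (Q.cell i) (e '' Q.bd i ∪ Inside (e '' Q.bd i)) ∧
      EqOn (A i) e (Q.bd i) ∧ ConicalOn (A i) (Q.cell i \ {z}) := by
  obtain ⟨Φ, hΦ⟩ := exists_aff hG hg
  obtain ⟨z, hz⟩ := Q.ocell_nonempty i
  have hball := ball3 hi
  have h1 := hball.image Φ Subset.rfl
  rw [hΦ] at h1
  refine ⟨Φ.invFun, z, hz, ?_, he, conicalOn_of_affine (A i) (conicalSet_punct hball.conicalSet z)⟩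
  rw [← image_congr he, jb.2 h1, union_sdiff_cancel h1.1]
  have := homeoOn_con Φ
  rwa [hΦ] at this

theorem iUnion_bd (hQ : Q.Cvx) (ho : IsOpen Q.carrier) :
    Q.skel 2 = ⋃ i : {i // Q.dim i = 3}, Q.bd i := by
  refine Subset.antisymm (fun x hx => ?_) (iUnion_subset fun i => Q.bd_subset_skel i.2.le)
  obtain ⟨j, hj, hx⟩ := Q.mem_skel.1 hx
  obtain ⟨l, hl, hjl⟩ := TP.exists_top hQ ho j
  exact mem_iUnion.2 ⟨⟨l, hl⟩, Q.subset_bd_of_dim_lt hjl (by omega) hx⟩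

theorem iUnion_cell (hQ : Q.Cvx) (ho : IsOpen Q.carrier) :
    ⋃ i : {i // Q.dim i = 3}, Q.cell i = Q.carrier := by
  refine Subset.antisymm (iUnion_subset fun i => Q.cell_subset_carrier i) (fun x hx => ?_)
  obtain ⟨j, hx⟩ := Q.mem_carrier.1 hx
  obtain ⟨l, hl, hjl⟩ := TP.exists_top hQ ho j
  exact mem_iUnion.2 ⟨⟨l, hl⟩, hjl hx⟩

theorem tiles (hQ : Q.Cvx) {i j : Q.ι} (hi : Q.dim i = 3) (hj : Q.dim j = 3) (hne : i ≠ j) :
    Disjoint (Q.cell i \ Q.bd i) (Q.cell j) ∧ IsPreconnected (Q.bd j \ Q.cell i) ∧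
      (Q.bd j \ Q.cell i).Nonempty := by
  refine ⟨Q.disjoint_ocell_cell fun h => hne (Q.eq_of_subset_of_dim_le h (by omega)), ?_⟩
  have hs := Q.inter_subset_bd (i := j) (j := i) hne.symm (by omega)
  have e : Q.bd j \ Q.cell i = frontier (Q.cell j) \ (Q.cell j ∩ Q.cell i) := by
    rw [← TP.bd_eq_frontier hQ hj]
    ext x
    exact ⟨fun h => ⟨h.1, fun h' => h.2 h'.2⟩, fun h => ⟨h.1, fun h' => h.2 ⟨Q.bd_subset j h.1, h'⟩⟩⟩
  rw [e]
  exact frc (n := 1) (Q.isCompact_cell j) (hQ j).1 ((TP.interior_nonempty_iff hQ j).2 hj)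
    ((hQ j).1.inter (hQ i).1) ((Q.isClosed_cell j).inter (Q.isClosed_cell i))
    (TP.bd_eq_frontier hQ hj ▸ hs)

end Fill

open Fill

theorem fill_of (c2 : CONE2) (c3 : CONE3) (sch : SCH3) (asm : ASMG) (jb : JB) : FILL := by
  intro p hp1 hp2
  choose C2 hC2 using c2 hp1 hp2
  choose C3 hC3 using c3 hp1 (show p < 3 by linarith)
  refine ⟨fun M => max (C2 M) (C3 M), ?_⟩
  intro Ω Λ Q R G A O n M η hΩ hne hΛ hΛc hQ hcar hR hG hO hlf hB hη
  subst hcar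
  obtain ⟨ψ, p1, p2, p3, p4⟩ := two (C := C2) (fun M => hC2 M) hQ hR hG hB hη
  let e := ψ.cast (iUnion_bd hQ hΩ) rfl
  have H : ∀ i : {i // Q.dim i = 3}, ∃ (h g : E3 → E3) (z : E3), (z ∈ Q.cell i \ Q.bd i ∧
      HomeoOn h g (Q.cell i) (e.toFun '' Q.bd i ∪ Inside (e.toFun '' Q.bd i)) ∧
      EqOn h e.toFun (Q.bd i) ∧ ConicalOn h (Q.cell i \ {z})) ∧
      (i.1 ∈ G → EqOn h (A i) (Q.cell i)) ∧
      (i.1 ∉ G → EB Q p (n i) (C3 (M i)) (η i) i h) := by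
    intro i
    by_cases hg : i.1 ∈ G
    · obtain ⟨g, z, h⟩ := cell_good jb hG i.2 hg (eqOn_bd hG p2 i.2.le hg)
      exact ⟨A i, g, z, h, fun _ _ _ => rfl, fun h' => absurd hg h'⟩
    · obtain ⟨h, g, z, a, b⟩ := cell_bad sch (hC3 (M i)) ψ i.2 (Q.bd_subset_skel i.2.le)
        (hB i (by have := i.2; omega)) (hη i)
      exact ⟨h, g, z, a, fun h' => absurd h' hg, fun _ => b⟩
  choose h g z a1 a2 a3 using H
  obtain ⟨F, F', b1, b2, b3, b4, b5⟩ := asm (fun i : {i // Q.dim i = 3} => Q.cell i)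
    (fun i => Q.bd i) (fun i => O i) e h g z hΩ hne hΛ hΛc (fun i => ball3 i.2)
    (iUnion_cell hQ hΩ) (Q.lfIn.comp_injective Subtype.val_injective)
    (fun i j hij => tiles hQ i.2 j.2 fun h => hij (Subtype.ext h))
    (fun i => ⟨(hO i i.2).1, by
      rw [show e.toFun '' Q.bd i = Q.rbd R i from image_bd ψ p1 i.2.le]
      intro y hy
      obtain ⟨j, hj, hy⟩ := Q.mem_rbd.1 hy
      have := Q.dim_lt hj
      have := i.2
      exact (hO i i.2).2.2 j (by omega) (hj.trans (Q.bd_subset i)) hy, (hO i i.2).2.1⟩)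
    (hlf.comp_injective Subtype.val_injective) a1
  have hF : EqOn F ψ.toFun (Q.skel 2) := by
    intro x hx
    rw [iUnion_bd hQ hΩ] at hx
    obtain ⟨i, hx⟩ := mem_iUnion.1 hx
    rw [b2 i (Q.bd_subset i hx)]
    exact (a1 i).2.2.1 hx
  refine ⟨F, F', range z, b1, b3, ?_, b4, fun i hi => b5 ⟨i, hi⟩, fun i hg => ?_,
    fun e x y he hs u hu w hw => ?_, fun i hg hi => ?_⟩
  · rw [Set.disjoint_left]
    rintro _ ⟨i, rfl⟩ hz
    have := (Q.mem_skel_iff_dim (a1 i).1).1 hz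
    have := i.2
    omega
  · by_cases hi : Q.dim i = 3
    · exact (b2 ⟨i, hi⟩).trans (a2 ⟨i, hi⟩ hg)
    · have h2 : Q.dim i ≤ 2 := by have := TP.dim_le_three hQ i; omega
      exact (hF.mono (Q.cell_subset_skel h2)).trans (p2 i hg h2)
  · have hs' := Q.cell_subset_skel (i := e) (k := 2) (by omega)
    rw [hF (hs' hu), hF (hs' hw)]
    exact p3 e x y he hs u hu w hw
  · by_cases h3 : Q.dim i = 3
    · exact ((a3 ⟨i, h3⟩ hg).congr (b2 ⟨i, h3⟩)).mono (ENNReal.coe_le_coe.2 (le_max_right _ _))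
    · have h2 : Q.dim i = 2 := by have := TP.dim_le_three hQ i; omega
      exact ((p4 i hg h2).congr (hF.mono (Q.cell_subset_skel h2.le))).mono
        (ENNReal.coe_le_coe.2 (le_max_left _ _))

end P073
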