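import Vale.Agent.P073Z.RCX2
import Vale.Agent.P073Z.SQ.Len

/-!
# Parametrisation of a realisation of the one-skeleton with constant speed
-/

open Set Metric Topology Filter MeasureTheory
open scoped ENNReal NNReal

namespace P073

namespace Fill

theorem edist_le_of_mem_segment {p q x y : E3} (hx : x ∈ segment ℝ p q) (hy : y ∈ segment ℝ p q) :
    edist x y ≤ edist p q := by
  rw [segment_eq_image_lineMap] at hx hy
  obtain ⟨s, hs, rfl⟩ := hx
  obtain ⟨t, ht, rfl⟩ := hy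
  rw [edist_dist, edist_dist]
  refine ENNReal.ofReal_le_ofReal ?_
  rw [dist_lineMap_lineMap]
  refine mul_le_of_le_one_left dist_nonneg ?_
  rw [Real.dist_eq, abs_le]
  constructor <;> linarith [hs.1, hs.2, ht.1, ht.2]

variable {Q : RCx E3} {R : Q.ι → Set E3} {G : Set Q.ι} {A : Q.ι → E3 →ᵃ[ℝ] E3}

/-- the good cells -/
def GoodA (Q : RCx E3) (R : Q.ι → Set E3) (G : Set Q.ι) (A : Q.ι → E3 →ᵃ[ℝ] E3) : Prop :=
  ∀ i ∈ G, InjOn (A i) (Q.cell i) ∧
    (∀ j, Q.cell j ⊆ Q.cell i → j ∈ G ∧ EqOn (A j) (A i) (Q.cell j)) ∧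
    (Q.dim i ≤ 2 → R i = A i '' Q.cell i)

theorem exists_pt (hR : Realiz Q 2 R) {v : Q.ι} (hv : Q.dim v = 0) : ∃ r, R v = {r} := by
  have h := hR.ball v (by omega)
  rw [hv] at h
  exact h.zero_eq.1

/-- the parametrisation of one edge -/
theorem edge (hQ : Q.Cvx) (hR : Realiz Q 2 R) (hG : GoodA Q R G A) {e : Q.ι} (he : Q.dim e = 1) :
    ∃ Φ : ConHomeo (Q.cell e) (R e),
      (∀ v, Q.cell v ⊆ Q.cell e → Q.dim v = 0 → ∀ x ∈ Q.cell v, Φ.toFun x ∈ R v) ∧
      (e ∈ G → EqOn Φ.toFun (A e) (Q.cell e)) ∧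
      ∀ x y, Q.cell e = segment ℝ x y → ∀ u ∈ Q.cell e, ∀ w ∈ Q.cell e,
        edist (Φ.toFun u) (Φ.toFun w) * edist x y ≤ μH[1] (R e) * edist u w := by
  obtain ⟨p, q, j₁, j₂, hpq, hc, hb, d1, d2, c1, c2, hne⟩ := hQ.exists_segment he
  obtain ⟨r₁, h1⟩ := exists_pt hR d1
  obtain ⟨r₂, h2⟩ := exists_pt hR d2
  have key : ∀ v, Q.cell v ⊆ Q.bd e → v = j₁ ∨ v = j₂ := by
    intro v hv
    have hd := Q.dim_lt hv
    obtain ⟨a, ha⟩ := Q.exists_vertex (i := v) (by omega)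
    have : a ∈ Q.bd e := hv (ha ▸ mem_singleton a)
    rw [hb] at this
    rcases this with rfl | rfl
    · exact Or.inl (Q.cell_injective (ha.trans c1.symm))
    · exact Or.inr (Q.cell_injective (ha.trans c2.symm))
  have s1 : Q.cell j₁ ⊆ Q.bd e := by rw [c1, hb]; simp
  have s2 : Q.cell j₂ ⊆ Q.bd e := by rw [c2, hb]; simp
  have hrb : Q.rbd R e = {r₁, r₂} := by
    ext y
    rw [Q.mem_rbd]
    constructor
    · rintro ⟨v, hv, hy⟩
      rcases key v hv with rfl | rfl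
      · rw [h1] at hy; exact Or.inl hy
      · rw [h2] at hy; exact Or.inr hy
    · rintro (rfl | rfl)
      · exact ⟨j₁, s1, h1 ▸ mem_singleton _⟩
      · exact ⟨j₂, s2, h2 ▸ mem_singleton _⟩
  have hr : r₁ ≠ r₂ := by
    intro h
    have := (hR.subset_iff (i := j₂) (j := j₁) (by omega) (by omega)).1 (by rw [h1, h2, h])
    rw [c1, c2] at this
    exact hpq (this (mem_singleton p))
  have hB := hR.ball e (by omega)
  rw [he, hrb] at hB
  obtain ⟨a, b, hab, hE⟩ := hB.one_arc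
  have harc : IsArc (R e) r₁ r₂ := by
    have m1 : r₁ ∈ ({a, b} : Set E3) := hE ▸ Or.inl rfl
    have m2 : r₂ ∈ ({a, b} : Set E3) := hE ▸ Or.inr rfl
    rcases m1 with rfl | rfl
    · rcases m2 with rfl | rfl
      · exact absurd rfl hr
      · exact hab
    · rcases m2 with rfl | rfl
      · exact hab.symm
      · exact absurd rfl hr
  obtain ⟨φ, f1, f2, f3, f4⟩ := csp harc hpq
  refine ⟨φ.cast hc.symm rfl, fun v hv hd x hx => ?_, fun hg x hx => ?_, fun x y hxy u hu w hw => ?_⟩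
  · rcases key v (Q.subset_bd_of_dim_lt hv (by omega)) with rfl | rfl
    · rw [c1] at hx
      rw [hx, h1]
      exact f1
    · rw [c2] at hx
      rw [hx, h2]
      exact f2
  · obtain ⟨-, g2, g3⟩ := hG e hg
    have a1 : r₁ = A e p := by
      obtain ⟨m, m'⟩ := g2 j₁ (s1.trans (Q.bd_subset e))
      have := (hG j₁ m).2.2 (by omega)
      rw [h1, c1, image_singleton, singleton_eq_singleton_iff] at this
      rw [this]
      exact m' (c1 ▸ mem_singleton p)
    have a2 : r₂ = A e q := by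
      obtain ⟨m, m'⟩ := g2 j₂ (s2.trans (Q.bd_subset e))
      have := (hG j₂ m).2.2 (by omega)
      rw [h2, c2, image_singleton, singleton_eq_singleton_iff] at this
      rw [this]
      exact m' (c2 ▸ mem_singleton q)
    have hs : R e = segment ℝ r₁ r₂ := by
      rw [g3 (by omega), hc, a1, a2, image_segment]
    rw [hc, segment_eq_image_lineMap] at hx
    obtain ⟨t, ht, rfl⟩ := hx
    show φ.toFun _ = _
    rw [f4 hs t ht, a1, a2, AffineMap.apply_lineMap]
  · refine le_trans (mul_le_mul_right (edist_le_of_mem_segment (p := p) (q := q) ?_ ?_) _)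
      (f3 u (hc ▸ hu) w (hc ▸ hw))
    · rw [← hc, hxy]; exact left_mem_segment ℝ x y
    · rw [← hc, hxy]; exact right_mem_segment ℝ x y

/-- the parametrisation of the one-skeleton -/
theorem one (hQ : Q.Cvx) (hR : Realiz Q 2 R) (hG : GoodA Q R G A) :
    ∃ ψ : ConHomeo (Q.skel 1) (Q.rskel R 1),
      (∀ i, Q.dim i ≤ 1 → ψ.toFun '' Q.cell i = R i) ∧
      (∀ i ∈ G, Q.dim i ≤ 1 → EqOn ψ.toFun (A i) (Q.cell i)) ∧
      ∀ e x y, Q.dim e = 1 → Q.cell e = segment ℝ x y → ∀ u ∈ Q.cell e, ∀ w ∈ Q.cell e,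
        edist (ψ.toFun u) (ψ.toFun w) * edist x y ≤ μH[1] (R e) * edist u w := by
  have H : ∀ i, ∃ φ : E3 → E3, Q.dim i ≤ 1 → (∃ Φ : ConHomeo (Q.cell i) (R i),
      EqOn Φ.toFun φ (Q.cell i)) ∧
      (∀ v, Q.cell v ⊆ Q.cell i → Q.dim v = 0 → ∀ x ∈ Q.cell v, φ x ∈ R v) ∧
      (i ∈ G → EqOn φ (A i) (Q.cell i)) ∧
      (Q.dim i = 1 → ∀ x y, Q.cell i = segment ℝ x y → ∀ u ∈ Q.cell i, ∀ w ∈ Q.cell i,
        edist (φ u) (φ w) * edist x y ≤ μH[1] (R i) * edist u w) := by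
    intro i
    by_cases h1 : Q.dim i = 1
    · obtain ⟨Φ, a, b, c⟩ := edge hQ hR hG h1
      exact ⟨Φ.toFun, fun _ => ⟨⟨Φ, fun _ _ => rfl⟩, a, b, fun _ => c⟩⟩
    by_cases h0 : Q.dim i = 0
    · obtain ⟨r, hr⟩ := exists_pt hR h0
      obtain ⟨a, ha⟩ := Q.exists_vertex h0
      refine ⟨fun _ => r, fun _ => ⟨⟨ConHomeo.ofCompact (Q.isCompact_cell i) (fun _ => r)
        continuousOn_const (by rw [ha]; exact injOn_singleton _ _)
        (conicalOn_const r (Q.ball i).conicalSet) (by rw [ha, hr, image_singleton]), ?_⟩,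
        fun v hv hd x _ => ?_, fun hg x hx => ?_, fun h => absurd h h1⟩⟩
      · rw [ConHomeo.ofCompact_toFun]
        exact fun _ _ => rfl
      · rw [Q.eq_of_subset_of_dim_le hv (by omega), hr]
        exact mem_singleton r
      · have := (hG i hg).2.2 (by omega)
        have h2 : A i x ∈ R i := this ▸ mem_image_of_mem _ hx
        rw [hr] at h2
        exact h2.symm
    · exact ⟨id, fun h => by omega⟩
  choose φ hφ using H
  obtain ⟨ψ, hψ⟩ := gluek Q 1 R φ (hR.mono_dim (by omega)) (fun i hi => (hφ i hi).1)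
    (fun i j hi hj x hx => by
      rcases Q.eq_or_subset_bd hj with rfl | hb
      · rfl
      · have hd := Q.dim_lt hb
        obtain ⟨r, hr⟩ := exists_pt hR (v := j) (by omega)
        have a := (hφ i hi).2.1 j hj (by omega) x hx
        have b := (hφ j (by omega)).2.1 j Subset.rfl (by omega) x hx
        rw [hr] at a b
        exact a.trans b.symm)
  refine ⟨ψ, fun i hi => ?_, fun i hg hi => (hψ i hi).trans ((hφ i hi).2.2.1 hg),
    fun e x y he hs u hu w hw => ?_⟩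
  · obtain ⟨Φ, h⟩ := (hφ i hi).1
    rw [image_congr (hψ i hi), ← image_congr h, Φ.image_eq]
  · rw [hψ e he.le hu, hψ e he.le hw]
    exact (hφ e he.le).2.2.2 he x y hs u hu w hw

end Fill

end P073
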