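import Vale.Agent.P073Z.TOPO.Fill1
import Vale.Agent.P073Z.EN.B

/-!
# Parametrisation of a realisation of the two-skeleton with energy bounds
-/

open Set Metric Topology Filter MeasureTheory
open scoped ENNReal NNReal

namespace P073

namespace Fill

variable {Q : RCx E3} {R : Q.ι → Set E3} {G : Set Q.ι} {A : Q.ι → E3 →ᵃ[ℝ] E3} {p : ℝ}

/-- the energy bound on a cell -/
def EB (Q : RCx E3) (p : ℝ) (n : E3 ≃ᴬ[ℝ] E3) (C η : ℝ≥0∞) (i : Q.ι) (h : E3 → E3) : Prop :=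
  En (Q.dim i) p (h ∘ n.symm) (n '' Q.cell i) ≤
    C * En (Q.dim i - 1) p (h ∘ n.symm) (n '' Q.bd i) + η

theorem en_congr_img {k : ℕ} {X : Set E3} (hX : IsCompact X) (n : E3 ≃ᴬ[ℝ] E3) {h h' : E3 → E3}
    (he : EqOn h h' X) : En k p (h ∘ n.symm) (n '' X) = En k p (h' ∘ n.symm) (n '' X) := by
  refine EN.en_congr (hX.image n.continuous).isClosed.measurableSet ?_
  rintro _ ⟨x, hx, rfl⟩
  simp only [Function.comp, n.symm_apply_apply]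
  exact he hx

theorem EB.congr {n : E3 ≃ᴬ[ℝ] E3} {C η : ℝ≥0∞} {i : Q.ι} {h h' : E3 → E3}
    (H : EB Q p n C η i h) (he : EqOn h' h (Q.cell i)) : EB Q p n C η i h' := by
  unfold EB at *
  rw [en_congr_img (Q.isCompact_cell i) n he,
    en_congr_img (Q.isCompact_bd i) n (he.mono (Q.bd_subset i))]
  exact H

theorem EB.mono {n : E3 ≃ᴬ[ℝ] E3} {C C' η : ℝ≥0∞} {i : Q.ι} {h : E3 → E3}
    (H : EB Q p n C η i h) (hC : C ≤ C') : EB Q p n C' η i h :=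
  le_trans H (add_le_add_left (mul_le_mul_left hC _) _)

theorem image_bd {k : ℕ} {X Y : Set E3} (ψ : ConHomeo X Y)
    (hψ : ∀ i, Q.dim i ≤ k → ψ.toFun '' Q.cell i = R i) {i : Q.ι} (hi : Q.dim i ≤ k + 1) :
    ψ.toFun '' Q.bd i = Q.rbd R i := by
  ext y
  rw [Q.mem_rbd]
  constructor
  · rintro ⟨x, hx, rfl⟩
    obtain ⟨j, h1, h2, h3⟩ := Q.exists_face_bd hx
    exact ⟨j, h2, hψ j (by omega) ▸ mem_image_of_mem _ h1.1⟩
  · rintro ⟨j, hj, hy⟩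
    have := Q.dim_lt hj
    rw [← hψ j (by omega)] at hy
    exact image_mono hj hy

theorem eqOn_bd (hG : GoodA Q R G A) {k : ℕ} {ψ : E3 → E3}
    (hψ : ∀ i ∈ G, Q.dim i ≤ k → EqOn ψ (A i) (Q.cell i)) {i : Q.ι} (hi : Q.dim i ≤ k + 1)
    (hg : i ∈ G) : EqOn (A i) ψ (Q.bd i) := by
  intro x hx
  obtain ⟨j, h1, h2, h3⟩ := Q.exists_face_bd hx
  obtain ⟨a, b⟩ := (hG i hg).2.1 j (h2.trans (Q.bd_subset i))
  rw [hψ j a (by omega) h1.1, b h1.1]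

/-- the affine map of a good cell as a PL homeomorphism -/
theorem exists_aff (hG : GoodA Q R G A) {i : Q.ι} (hg : i ∈ G) :
    ∃ Φ : ConHomeo (Q.cell i) (A i '' Q.cell i), Φ.toFun = A i :=
  ⟨ConHomeo.ofCompact (Q.isCompact_cell i) (A i) (A i).continuous_of_finiteDimensional.continuousOn
    (hG i hg).1 (conicalOn_of_affine (A i) (Q.ball i).conicalSet) rfl,
    ConHomeo.ofCompact_toFun _ _ _ _ _ _⟩

/-- the parametrisation of one face -/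
theorem face {C : ℝ≥0} {M : ℝ≥0} {n : E3 ≃ᴬ[ℝ] E3} {η : ℝ≥0∞}
    (hC : ∀ {D B : Set E3} {h : E3 → E3} {η : ℝ≥0∞}, BiChart 2 D B M → PLOn h D → 0 < η →
      ∃ Θ : ConHomeo D D, EqOn Θ.toFun id B ∧ En 2 p (h ∘ Θ.toFun) D ≤ C * En 1 p h B + η)
    (hR : Realiz Q 2 R) (ψ : ConHomeo (Q.skel 1) (Q.rskel R 1))
    (hψ : ∀ i, Q.dim i ≤ 1 → ψ.toFun '' Q.cell i = R i) {i : Q.ι} (hi : Q.dim i = 2)
    (hB : BiChart (Q.dim i) (n '' Q.cell i) (n '' Q.bd i) M) (hη : 0 < η) :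
    ∃ Φ : ConHomeo (Q.cell i) (R i), EqOn Φ.toFun ψ.toFun (Q.bd i) ∧ EB Q p n C η i Φ.toFun := by
  have hb := image_bd ψ hψ (i := i) (by omega)
  obtain ⟨Φ, h1, -⟩ := (Q.ball i).exists_extend (hR.ball i hi.le)
    ((ψ.restr (Q.ball i).conicalSet_bdry (Q.bd_subset_skel (by omega))).cast rfl hb)
  let ν := ConHomeo.ofAffine n (Q.ball i).conicalSet
  rw [hi] at hB
  obtain ⟨Θ, t1, t2⟩ := hC (h := Φ.toFun ∘ n.symm) hB
    ⟨(ν.symm.trans Φ).cont, (ν.symm.trans Φ).conical⟩ hη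
  have e1 : EqOn (ν.trans (Θ.trans (ν.symm.trans Φ))).toFun Φ.toFun (Q.bd i) := by
    intro x hx
    show Φ.toFun (n.symm (Θ.toFun (n x))) = _
    rw [t1 (mem_image_of_mem n hx), id, n.symm_apply_apply]
  refine ⟨ν.trans (Θ.trans (ν.symm.trans Φ)), e1.trans h1, ?_⟩
  unfold EB
  rw [en_congr_img (Q.isCompact_bd i) n e1, hi]
  have e2 : (ν.trans (Θ.trans (ν.symm.trans Φ))).toFun ∘ n.symm =
      (Φ.toFun ∘ n.symm) ∘ Θ.toFun := by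
    funext x
    show Φ.toFun (n.symm (Θ.toFun (n (n.symm x)))) = _
    rw [n.apply_symm_apply]
    rfl
  rw [e2]
  exact t2

/-- the parametrisation of the two-skeleton -/
theorem two {C : ℝ≥0 → ℝ≥0} {M : Q.ι → ℝ≥0} {n : Q.ι → E3 ≃ᴬ[ℝ] E3} {η : Q.ι → ℝ≥0∞}
    (hC : ∀ (M : ℝ≥0) {D B : Set E3} {h : E3 → E3} {η : ℝ≥0∞}, BiChart 2 D B M → PLOn h D →
      0 < η → ∃ Θ : ConHomeo D D, EqOn Θ.toFun id B ∧
        En 2 p (h ∘ Θ.toFun) D ≤ C M * En 1 p h B + η)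
    (hQ : Q.Cvx) (hR : Realiz Q 2 R) (hG : GoodA Q R G A)
    (hB : ∀ i, 2 ≤ Q.dim i → BiChart (Q.dim i) (n i '' Q.cell i) (n i '' Q.bd i) (M i))
    (hη : ∀ i, 0 < η i) :
    ∃ ψ : ConHomeo (Q.skel 2) (Q.rskel R 2),
      (∀ i, Q.dim i ≤ 2 → ψ.toFun '' Q.cell i = R i) ∧
      (∀ i ∈ G, Q.dim i ≤ 2 → EqOn ψ.toFun (A i) (Q.cell i)) ∧
      (∀ e x y, Q.dim e = 1 → Q.cell e = segment ℝ x y → ∀ u ∈ Q.cell e, ∀ w ∈ Q.cell e,
        edist (ψ.toFun u) (ψ.toFun w) * edist x y ≤ μH[1] (R e) * edist u w) ∧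
      ∀ i, i ∉ G → Q.dim i = 2 → EB Q p (n i) (C (M i)) (η i) i ψ.toFun := by
  obtain ⟨ψ, p1, p2, p3⟩ := one hQ hR hG
  have H : ∀ i, ∃ φ : E3 → E3, Q.dim i ≤ 2 → (∃ Φ : ConHomeo (Q.cell i) (R i),
      EqOn Φ.toFun φ (Q.cell i)) ∧ EqOn φ ψ.toFun (Q.cell i ∩ Q.skel 1) ∧
      (i ∈ G → EqOn φ (A i) (Q.cell i)) ∧
      (i ∉ G → Q.dim i = 2 → EB Q p (n i) (C (M i)) (η i) i φ) := by
    intro i
    by_cases h2 : Q.dim i = 2
    · rw [Q.cell_inter_skel h2]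
      by_cases hg : i ∈ G
      · obtain ⟨Φ, hΦ⟩ := exists_aff hG hg
        exact ⟨A i, fun _ => ⟨⟨Φ.cast rfl ((hG i hg).2.2 h2.le).symm, fun x _ => congrFun hΦ x⟩,
          eqOn_bd hG p2 h2.le hg, fun _ _ _ => rfl, fun h => absurd hg h⟩⟩
      · obtain ⟨Φ, a, b⟩ := face (hC (M i)) hR ψ p1 h2 (hB i h2.ge) (hη i)
        exact ⟨Φ.toFun, fun _ => ⟨⟨Φ, fun _ _ => rfl⟩, a, fun h => absurd h hg, fun _ _ => b⟩⟩
    · refine ⟨ψ.toFun, fun hi => ⟨⟨(ψ.restr (Q.ball i).conicalSet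
        (Q.cell_subset_skel (by omega))).cast rfl (p1 i (by omega)), fun _ _ => rfl⟩,
        fun _ _ => rfl, fun hg => p2 i hg (by omega), fun _ h => absurd h h2⟩⟩
  choose φ hφ using H
  obtain ⟨χ, hχ⟩ := gluek Q 2 R φ hR (fun i hi => (hφ i hi).1)
    (fun i j hi hj x hx => by
      rcases Q.eq_or_subset_bd hj with rfl | hb
      · rfl
      · have hd := Q.dim_lt hb
        have hs : x ∈ Q.skel 1 := Q.cell_subset_skel (by omega) hx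
        rw [(hφ i hi).2.1 ⟨hj hx, hs⟩, (hφ j (by omega)).2.1 ⟨hx, hs⟩])
  refine ⟨χ, fun i hi => ?_, fun i hg hi => (hχ i hi).trans ((hφ i hi).2.2.1 hg),
    fun e x y he hs u hu w hw => ?_, fun i hg hi => ((hφ i hi.le).2.2.2 hg hi).congr (hχ i hi.le)⟩
  · obtain ⟨Φ, h⟩ := (hφ i hi).1
    rw [image_congr (hχ i hi), ← image_congr h, Φ.image_eq]
  · have h2 : Q.dim e ≤ 2 := by omega
    rw [hχ e h2 hu, hχ e h2 hw, (hφ e h2).2.1 ⟨hu, Q.cell_subset_skel he.le hu⟩,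
      (hφ e h2).2.1 ⟨hw, Q.cell_subset_skel he.le hw⟩]
    exact p3 e x y he hs u hu w hw

end Fill

end P073
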