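import Vale.Agent.P073Z.TOPO.Cov

/-!
# The first half of the machine: a good realisation of the two-skeleton
-/

open Set Metric Topology Filter MeasureTheory
open scoped ENNReal NNReal

namespace P073

namespace TP

theorem lf_image {ι : Type} {X : ι → Set E3} {Ω Λ : Set E3} {f f' : E3 → E3}
    (hf : HomeoOn f f' Ω Λ) (h : LFIn X Ω) (hX : ∀ i, X i ⊆ Ω) : LFIn (fun i => f '' X i) Λ := by
  have h1 : f '' Ω = Λ := Subset.antisymm hf.mapsTo.image_subset fun y hy =>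
    ⟨f' y, hf.mapsTo_inv hy, hf.right_inv hy⟩
  exact h1 ▸ h.image Subset.rfl hX hf.mapsTo hf.left_inv hf.cont_inv

theorem exists_small (K : ℝ≥0) {η : ℝ≥0∞} (h : 0 < η) :
    ∃ ζ : ℝ≥0∞, 0 < ζ ∧ ζ < ⊤ ∧ K * ζ + ζ ≤ η := by
  have h1 : (K : ℝ≥0∞) + 1 ≠ ⊤ := by simp
  have h2 : (K : ℝ≥0∞) + 1 ≠ 0 := by simp
  refine ⟨min η 1 / (K + 1), ENNReal.div_pos (lt_min h one_pos).ne' h1,
    ENNReal.div_lt_top ((min_le_right _ _).trans_lt ENNReal.one_lt_top).ne h2, ?_⟩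
  rw [← add_one_mul, ENNReal.mul_div_cancel h2 h1]
  exact min_le_left _ _

/-- a PL embedding of the two-skeleton with short wires and few crossings -/
theorem exists_psi (grid : GRID) (t0 : T0) (sq : SQ) : ∃ K₃ : ℝ≥0,
    ∀ {Ω Λ W : Set E3} {f f' : E3 → E3} (Q : RCx E3) {κ : Type} (s : Finset κ) (co : κ → Fin 3)
      (A : κ → Set ℝ) (P : E3 → ℝ → Prop) (η : Q.ι → ℝ≥0∞),
    IsOpen Ω → IsOpen Λ → IsConnected Ω → Bornology.IsBounded Λ → HomeoOn f f' Ω Λ →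
    GenBV f Ω → Q.Cvx → Q.carrier = Ω →
    (∀ e x y, Q.dim e = 1 → Q.cell e = segment ℝ x y → segVar f x y < ⊤) →
    (∀ k ∈ s, MeasurableSet (A k) ∧ volume (A k) ≠ 0) → IsCompact W → W ⊆ Ω →
    (∀ x a b, a ≤ b → P x b → P x a) → (∀ x ∈ Ω, ∃ c > 0, ∀ᶠ y in 𝓝 x, P y c) →
    (∀ e, 0 < η e) →
    ∃ (t : κ → ℝ) (Y : Set E3) (ψ : ConHomeo (Q.skel 2) Y),
      (∀ k ∈ s, t k ∈ A k ∧ ∀ e x y, Q.dim e = 1 → Q.cell e ⊆ W → Q.cell e = segment ℝ x y →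
        cnt ψ.toFun x y {z | z (co k) = t k} ≤ cnt f x y {z | z (co k) = t k}) ∧
      (∀ x ∈ Q.skel 2, ∃ c, P x c ∧ dist (ψ.toFun x) (f x) < c) ∧
      (∀ C, IsCompact C → C ⊆ Λ → {j | (ψ.toFun '' Q.cell j ∩ C).Nonempty}.Finite) ∧
      ∀ e x y, Q.dim e = 1 → Q.cell e = segment ℝ x y →
        μH[1] (ψ.toFun '' Q.cell e) ≤ K₃ * segVar f x y + η e := by
  obtain ⟨K₀, hK₀⟩ := grid
  obtain ⟨K₁, hK₁⟩ := sq
  refine ⟨K₁ * K₀, ?_⟩
  intro Ω Λ W f f' Q κ s co A P η hΩ hΛ hΩc hΛb hf hG hQ hQΩ hV hA hW hWΩ hm hP hη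
  have h1 : ∀ e : {e // Q.dim e = 1}, ∃ a b : E3, a ≠ b ∧ Q.cell e = segment ℝ a b := fun e =>
    let ⟨p, q, _, _, h1, h2, _⟩ := hQ.exists_segment e.2; ⟨p, q, h1, h2⟩
  choose a b hab hseg using h1
  choose ζ hζ hζt hζη using fun e => exists_small K₁ (hη e)
  have hsΩ : ∀ e, segment ℝ (a e) (b e) ⊆ Ω := fun e =>
    hseg e ▸ hQΩ ▸ Q.cell_subset_carrier _
  have hs2 : ∀ e, segment ℝ (a e) (b e) ⊆ Q.skel 2 := fun e =>
    hseg e ▸ Q.cell_subset_skel (by have := e.2; omega)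
  have hlf : LFIn (fun e => segment ℝ (a e) (b e)) Ω := by
    have := Q.lfIn.comp_injective (Subtype.val_injective (p := fun e => Q.dim e = 1))
    simp only [hseg, hQΩ] at this
    exact this
  have hfW : IsCompact (f '' W) := hW.image_of_continuousOn (hf.cont.mono hWΩ)
  obtain ⟨c₀, hc₀, hX₀⟩ := hfW.exists_cthickening_subset_open hΛ
    (hf.mapsTo.mono_left hWΩ).image_subset
  obtain ⟨δ, hδ, hcov⟩ := exists_cover hΩ hΛ hf (fun y c => P y c ∧ c ≤ c₀) fun x hx => by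
    obtain ⟨c, hc, h⟩ := hP x hx
    exact ⟨min c c₀, lt_min hc hc₀,
      h.mono fun y hy => ⟨hm _ _ _ (min_le_left _ _) hy, min_le_right _ _⟩⟩
  obtain ⟨K, hKc, hKΛ, hbox, hsm, hgl, hcr, hlev⟩ := hK₀ (f := f) a b (fun e => ζ e) s co A hΛ hΛb
    hδ hfW.cthickening hX₀ (fun e => ⟨hab e, hf.cont.mono (hsΩ e),
      (hf.mapsTo.mono_left (hsΩ e)).image_subset, hV e _ _ e.2 (hseg e), hζ e⟩)
    (lf_image hf hlf hsΩ) hA
  obtain ⟨O, hO, hOlf, hOP⟩ := hcov K hKΛ hsm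
  obtain ⟨g, g', Z, hg, hZ, hZN, hgc, hgO, hge⟩ := t0 (N := Q.skel 2) a b K O hΩ hΛ hΩc hf hG
    (hQΩ ▸ (Q.sub_skel 2).closedIn) (interior_skel hQ)
    (fun e => ⟨hsΩ e, hV e _ _ e.2 (hseg e), (hcr e).1⟩) hlf hKc hKΛ hgl hO hOlf
  have h2Ω : Q.skel 2 ⊆ Ω := hQΩ ▸ Q.skel_subset_carrier 2
  have hg2 : ConicalOn g (Q.skel 2) := hgc.mono (Q.sub_skel 2).conicalSet fun x hx =>
    ⟨h2Ω hx, fun hz => disjoint_left.1 hZN hz hx⟩
  have hcs : ∀ e, crossSum K g (a e) (b e) ≤ K₀ * segVar f (a e) (b e) + ζ e := fun e =>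
    (crossSum_mono K (hge e).2).trans (hcr e).2
  obtain ⟨Ψ, hΨ2, hΨc, hΨl⟩ := hK₁ (g := g) a b (fun e => ζ e) K hΛ hKc hKΛ hbox
    (fun e => ⟨⟨hg.cont.mono (hsΩ e), hg2.mono (Convex.conicalSet (convex_segment _ _)) (hs2 e)⟩,
      (hg.mapsTo.mono_left (hsΩ e)).image_subset, (hge e).1,
      (hcs e).trans_lt (ENNReal.add_lt_top.2 ⟨ENNReal.mul_lt_top ENNReal.coe_lt_top
        (hV e _ _ e.2 (hseg e)), hζt e⟩), hζ e⟩) (lf_image hg hlf hsΩ)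
  have hh : HomeoOn (Ψ.toFun ∘ g) (g' ∘ Ψ.invFun) Ω Λ :=
    { mapsTo := Ψ.mapsTo.comp hg.mapsTo
      mapsTo_inv := hg.mapsTo_inv.comp Ψ.mapsTo_inv
      left_inv := fun x hx => by
        simp only [Function.comp]
        rw [Ψ.left_inv (hg.mapsTo hx), hg.left_inv hx]
      right_inv := fun y hy => by
        simp only [Function.comp]
        rw [hg.right_inv (Ψ.mapsTo_inv hy), Ψ.right_inv hy]
      cont := Ψ.cont.comp hg.cont hg.mapsTo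
      cont_inv := hg.cont_inv.comp Ψ.cont_inv Ψ.mapsTo_inv }
  have hYΛ : (Ψ.toFun ∘ g) '' Q.skel 2 ⊆ Λ := (hh.mapsTo.mono_left h2Ω).image_subset
  have hclose : ∀ x ∈ Ω, ∃ c, (P x c ∧ c ≤ c₀) ∧ dist (Ψ.toFun (g x)) (f x) < c := by
    intro x hx
    obtain ⟨j, hj, hgj⟩ := hgO x hx
    obtain ⟨c, hc, h⟩ := hOP j x hj
    obtain ⟨l, hl, hgl⟩ := mem_iUnion₂.1 hgj
    exact ⟨c, hc, h _ (mem_iUnion₂.2 ⟨l, hl, hΨc l ▸ mem_image_of_mem _ hgl⟩)⟩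
  choose! t ht htS using hlev
  refine ⟨t, (Ψ.toFun ∘ g) '' Q.skel 2,
    { toFun := Ψ.toFun ∘ g
      invFun := g' ∘ Ψ.invFun
      mapsTo := mapsTo_image _ _
      mapsTo_inv := by
        rintro _ ⟨x, hx, rfl⟩
        rwa [hh.left_inv (h2Ω hx)]
      left_inv := hh.left_inv.mono h2Ω
      right_inv := hh.right_inv.mono hYΛ
      cont := hh.cont.mono h2Ω
      cont_inv := hh.cont_inv.mono hYΛ
      conical := Ψ.conical.comp hg2 (hg.mapsTo.mono_left h2Ω) (hg.cont.mono h2Ω) },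
    fun k hk => ⟨ht k hk, fun e x y he heW hxy => ?_⟩,
    fun x hx => let ⟨c, hc, h⟩ := hclose x (h2Ω hx); ⟨c, hc.1, h⟩,
    fun C hC hCΛ => (lf_image hh (hQΩ ▸ Q.lfIn)
      fun i => hQΩ ▸ Q.cell_subset_carrier i).finite_meet hC hCΛ, fun e x y he hxy => ?_⟩
  · have hs : segment ℝ x y = segment ℝ (a ⟨e, he⟩) (b ⟨e, he⟩) := hxy.symm.trans (hseg ⟨e, he⟩)
    rw [cnt_congr _ hs, cnt_congr _ hs]
    refine cnt_plane K (g := g) hfW.cthickening (hKΛ ▸ hX₀)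
      (fun z hz hzH => let ⟨S, h1, h2, h3⟩ := htS k hk z hz hzH; ⟨S, h1, h2, h3⟩)
      (fun u hu => ⟨?_, fun h2 => ?_⟩) (hcr _).1 (hge _).2
    · obtain ⟨c, hc, h⟩ := hclose u (hsΩ _ hu)
      exact mem_cthickening_of_dist_le _ (f u) _ _
        (mem_image_of_mem _ (heW (hxy ▸ hs ▸ hu))) (h.le.trans hc.2)
    · have h3 := hg.mapsTo (hsΩ _ hu)
      exact Ψ.injOn h3 (Ψ.mapsTo h3) (hΨ2 _ h2).symm
  · have hs : segment ℝ x y = segment ℝ (a ⟨e, he⟩) (b ⟨e, he⟩) := hxy.symm.trans (hseg ⟨e, he⟩)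
    rw [segVar_congr _ hs]
    change μH[1] ((Ψ.toFun ∘ g) '' Q.cell e) ≤ _
    rw [image_comp, hxy, hs]
    refine (hΨl ⟨e, he⟩).trans ((add_le_add (mul_le_mul_right (hcs _) _) le_rfl).trans ?_)
    rw [mul_add, ← mul_assoc, add_assoc, ENNReal.coe_mul]
    exact add_le_add le_rfl (hζη e)

theorem thick_trans {X Y Z : Set E3} {a b : ℝ} (h1 : X ⊆ thickening a Y)
    (h2 : Y ⊆ thickening b Z) : X ⊆ thickening (a + b) Z := fun x hx => by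
  obtain ⟨y, hy, hxy⟩ := mem_thickening_iff.1 (h1 hx)
  obtain ⟨z, hz, hyz⟩ := mem_thickening_iff.1 (h2 hy)
  exact mem_thickening_iff.2 ⟨z, hz, by linarith [dist_triangle x y z]⟩

theorem meet_thick {X Y Z : Set E3} {a b : ℝ} (h1 : X ⊆ thickening a Y)
    (h2 : (X ∩ thickening b Z).Nonempty) : (Y ∩ thickening (a + b) Z).Nonempty := by
  obtain ⟨x, hx, hxZ⟩ := h2
  obtain ⟨y, hy, hxy⟩ := mem_thickening_iff.1 (h1 hx)
  obtain ⟨z, hz, hxz⟩ := mem_thickening_iff.1 hxZ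
  exact ⟨y, hy, mem_thickening_iff.2 ⟨z, hz, by linarith [dist_triangle_left y z x]⟩⟩

/-- the realisation of the two-skeleton -/
theorem exists_real (grid : GRID) (t0 : T0) (sq : SQ) (str : STR) (flat : FLAT) :
    ∃ (κ₀ : ℝ → ℝ) (K₂ : ℝ≥0), (∀ M, 0 < κ₀ M) ∧
    ∀ {Ω Λ : Set E3} {f f' : E3 → E3} (Q : RCx E3) {β : ℝ} (γ : Good Q f κ₀ β)
      (O : Q.ι → Set E3) (ϱ : Q.ι → ℝ) (η : Q.ι → ℝ≥0∞),
    IsOpen Ω → IsOpen Λ → IsConnected Ω → Bornology.IsBounded Λ → 0 < β →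
    HomeoOn f f' Ω Λ → GenBV f Ω → Q.Cvx → Q.carrier = Ω →
    (∀ e x y, Q.dim e = 1 → Q.cell e = segment ℝ x y → segVar f x y < ⊤) →
    (∀ i, 0 < ϱ i ∧ thickening (ϱ i) (f '' Q.cell i) ⊆ O i ∧
      ((∃ j ∈ γ.G, (thickening (100 * β) (γ.A j '' Q.cell j) ∩ f '' Q.cell i).Nonempty) →
        100 * β ≤ ϱ i)) →
    (∀ j ∈ γ.G, cthickening (100 * β) (γ.A j '' Q.cell j) ⊆ Λ) → (∀ i, 0 < η i) →
    ∃ R : Q.ι → Set E3, Realiz Q 2 R ∧ (∀ i ∈ γ.G, Q.dim i ≤ 2 → R i = γ.A i '' Q.cell i) ∧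
      (∀ l i, Q.dim i ≤ 2 → Q.cell i ⊆ Q.cell l → R i ⊆ O l) ∧
      ∀ e x y, Q.dim e = 1 → Q.cell e = segment ℝ x y →
        μH[1] (R e) ≤ K₂ * segVar f x y + η e := by
  classical
  obtain ⟨K₃, hK₃⟩ := exists_psi grid t0 sq
  obtain ⟨κ₀, hκ₀, hstr⟩ := str
  refine ⟨κ₀, 2 * K₃ + 10, hκ₀, ?_⟩
  intro Ω Λ f f' Q β γ O ϱ η hΩ hΛ hΩc hΛb hβ hf hG hQ hQΩ hV hO hth hη
  have hQo : IsOpen Q.carrier := hQΩ ▸ hΩ
  obtain ⟨A, hA, hstr⟩ := hstr Q γ hβ hQo hQ (hQΩ ▸ hf.cont)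
  obtain ⟨c₁, hc₁, hc₁β, hc₁κ⟩ : ∃ c₁ > 0, c₁ ≤ β ∧ ∀ i ∈ γ.G, c₁ ≤ κ₀ (γ.M i) * γ.s i := by
    have h : ∀ᶠ c in 𝓝[>] (0:ℝ), c ≤ β ∧ ∀ i ∈ γ.G, c ≤ κ₀ (γ.M i) * γ.s i :=
      mem_nhdsWithin_of_mem_nhds ((eventually_le_nhds hβ).and
        ((eventually_all_finset _).2 fun i hi =>
          eventually_le_nhds (mul_pos (hκ₀ _) (γ.pos i hi).1)))
    obtain ⟨c, hc, h⟩ := (h.and self_mem_nhdsWithin).exists
    exact ⟨c, h, hc⟩
  have hC : IsCompact (⋃ v ∈ γ.G, Q.cell v) :=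
    γ.G.isCompact_biUnion fun v _ => Q.isCompact_cell v
  have hfin := Q.finite_meet hC (iUnion₂_subset fun v _ => Q.cell_subset_carrier v)
  choose ζ hζ hζt hζη using fun e => exists_small 1 (hη e)
  obtain ⟨t, Y, ψ, hcnt, hcl, hlf, hlen⟩ := hK₃ (W := ⋃ j ∈ hfin.toFinset, Q.cell j) Q
    ((γ.G.filter fun v => Q.dim v = 0) ×ˢ (Finset.univ : Finset (Fin 3 × Bool)))
    (fun k => k.2.1) A (fun y c => c ≤ c₁ ∧ ∀ i, y ∈ Q.cell i → c ≤ ϱ i) ζ hΩ hΛ hΩc hΛb hf hG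
    hQ hQΩ hV (fun k hk => by
      have := Finset.mem_filter.1 (Finset.mem_product.1 hk).1
      exact hA k.1 this.1 this.2 k.2)
    (Finset.isCompact_biUnion _ fun v _ => Q.isCompact_cell v)
    (iUnion₂_subset fun v _ => hQΩ ▸ Q.cell_subset_carrier v)
    (fun x a b hab h => ⟨hab.trans h.1, fun i hi => hab.trans (h.2 i hi)⟩) (fun x hx => by
      have hx' : x ∈ Q.carrier := hQΩ ▸ hx
      have h : ∀ᶠ c in 𝓝[>] (0:ℝ), c ≤ c₁ ∧ ∀ i ∈ {i | x ∈ Q.cell i}, c ≤ ϱ i :=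
        mem_nhdsWithin_of_mem_nhds ((eventually_le_nhds hc₁).and
          ((eventually_all_finite (Q.finite_mem hx')).2 fun i _ => eventually_le_nhds (hO i).1))
      obtain ⟨c, hc, h⟩ := (h.and self_mem_nhdsWithin).exists
      exact ⟨c, h, (Q.eventually_star hx').mono fun y hy =>
        ⟨hc.1, fun i hi => hc.2 i (hy i hi)⟩⟩) hζ
  have hAc : ∀ i, IsCompact (γ.A i '' Q.cell i) := fun i =>
    (Q.isCompact_cell i).image (γ.A i).continuous_of_finiteDimensional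
  have hlf' : ∀ i ∈ γ.G, ∀ d, d ≤ 100 * β →
      {j | (ψ.toFun '' Q.cell j ∩ thickening d (γ.A i '' Q.cell i)).Nonempty}.Finite :=
    fun i hi d hd => (hlf _ (hAc i).cthickening (hth i hi)).subset fun j hj =>
      Nonempty.mono (inter_subset_inter_right _
        ((thickening_mono hd _).trans (thickening_subset_cthickening _ _))) hj
  obtain ⟨R, hR, hR1, hRi, hRl, hRm⟩ := hstr t ψ (fun v hv h0 k => by
      have := hcnt (v, k) (Finset.mem_product.2 ⟨Finset.mem_filter.2 ⟨hv, h0⟩, Finset.mem_univ _⟩)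
      refine ⟨this.1, fun e x y he hve hxy => this.2 e x y he (fun z hz => ?_) hxy⟩
      obtain ⟨w, hw⟩ := Q.cell_nonempty v
      exact mem_iUnion₂.2 ⟨e, hfin.mem_toFinset.2 ⟨w, hve hw, mem_iUnion₂.2 ⟨v, hv, hw⟩⟩, hz⟩)
    (fun i hi x hx => let ⟨c, hc, h⟩ := hcl x hx; h.le.trans (hc.1.trans (hc₁κ i hi)))
    (fun i hi => (hlf' i hi _ (by linarith)).subset fun j hj => hj.2)
  obtain ⟨R', hR', hR'1, hR'2, hR'm⟩ := flat Q γ R hβ hQo hQ hR hR1 hRi fun i hi =>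
    (hlf' i hi (30 * β + 10 * β) (by linarith)).subset fun j hj => meet_thick (hRm j hj.1).1 hj.2
  refine ⟨R', hR', hR'2, fun l i hi hil => ?_, fun e x y he hxy => ?_⟩
  · have hψ : ∀ d, (c₁ ≤ d ∨ ϱ l ≤ d) → ψ.toFun '' Q.cell i ⊆ thickening d (f '' Q.cell l) := by
      rintro d hd _ ⟨x, hx, rfl⟩
      obtain ⟨c, hc, h⟩ := hcl x (Q.cell_subset_skel hi hx)
      exact mem_thickening_iff.2 ⟨f x, mem_image_of_mem _ (hil hx), h.trans_le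
        (hd.elim (fun hd => hc.1.trans hd) fun hd => (hc.2 l (hil hx)).trans hd)⟩
    refine Subset.trans ?_ (hO l).2.1
    by_cases hn : ∃ j ∈ γ.G,
        (thickening (100 * β) (γ.A j '' Q.cell j) ∩ f '' Q.cell l).Nonempty
    · have := (hO l).2.2 hn
      exact (thick_trans (hR'm i hi).1 (thick_trans (hRm i hi).1 (hψ β (Or.inl hc₁β)))).trans
        (thickening_mono (by linarith) _)
    · have hd : ∀ d, d ≤ 30 * β → Disjoint (ψ.toFun '' Q.cell i)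
          (thickening d (⋃ j ∈ γ.G, γ.A j '' Q.cell j)) := by
        intro d hd
        by_contra h
        obtain ⟨y, hy, hyt⟩ := meet_thick (hψ β (Or.inl hc₁β))
          (not_disjoint_iff_nonempty_inter.1 h)
        obtain ⟨z, hz, hyz⟩ := mem_thickening_iff.1 hyt
        obtain ⟨j, hj, hz⟩ := mem_iUnion₂.1 hz
        exact hn ⟨j, hj, y, mem_thickening_iff.2 ⟨z, hz, by linarith⟩, hy⟩
      have h1 : R i = ψ.toFun '' Q.cell i := (hRm i hi).2 (hd _ le_rfl)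
      rw [(hR'm i hi).2 (h1 ▸ hd _ (by linarith)), h1]
      exact hψ _ (Or.inr le_rfl)
  · rw [hR'1 e he.le]
    refine (hRl e x y he hxy).trans
      ((add_le_add (mul_le_mul_right (hlen e x y he hxy) _) le_rfl).trans ?_)
    have h1 := hζη e
    rw [ENNReal.coe_one, one_mul, ← two_mul] at h1
    push_cast
    calc 2 * (K₃ * segVar f x y + ζ e) + 10 * segVar f x y
        = (2 * K₃ + 10) * segVar f x y + 2 * ζ e := by ring
      _ ≤ _ := add_le_add le_rfl h1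

end TP

end P073
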